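import Mathlib

/-! `fun_prop` support for `Primrec` / `PrimrecPred`, and primitive recursive integer arithmetic. -/

set_option autoImplicit false

open Encodable Denumerable

namespace Crest.Agent.PrimrecRat

variable {α β γ σ : Type*} [Primcodable α] [Primcodable β] [Primcodable γ] [Primcodable σ]

attribute [fun_prop] Primrec PrimrecPred

@[fun_prop] theorem pr_id : Primrec (fun x : α => x) := Primrec.id
@[fun_prop] theorem pr_const (c : β) : Primrec (fun _ : α => c) := Primrec.const c
@[fun_prop] theorem pr_comp {f : β → σ} {g : α → β} (hf : Primrec f) (hg : Primrec g) :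
    Primrec (fun x => f (g x)) := hf.comp hg
@[fun_prop] theorem pr_fst {f : α → β × γ} (hf : Primrec f) : Primrec (fun x => (f x).1) :=
  Primrec.fst.comp hf
@[fun_prop] theorem pr_snd {f : α → β × γ} (hf : Primrec f) : Primrec (fun x => (f x).2) :=
  Primrec.snd.comp hf
@[fun_prop] theorem pr_pair {f : α → β} {g : α → γ} (hf : Primrec f) (hg : Primrec g) :
    Primrec (fun x => (f x, g x)) := hf.pair hg
@[fun_prop] theorem pr_nat_add {f g : α → ℕ} (hf : Primrec f) (hg : Primrec g) :
    Primrec (fun x => f x + g x) := Primrec.nat_add.comp hf hg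
@[fun_prop] theorem pr_nat_sub {f g : α → ℕ} (hf : Primrec f) (hg : Primrec g) :
    Primrec (fun x => f x - g x) := Primrec.nat_sub.comp hf hg
@[fun_prop] theorem pr_nat_mul {f g : α → ℕ} (hf : Primrec f) (hg : Primrec g) :
    Primrec (fun x => f x * g x) := Primrec.nat_mul.comp hf hg
@[fun_prop] theorem pr_nat_div {f g : α → ℕ} (hf : Primrec f) (hg : Primrec g) :
    Primrec (fun x => f x / g x) := Primrec.nat_div.comp hf hg
@[fun_prop] theorem pr_nat_mod {f g : α → ℕ} (hf : Primrec f) (hg : Primrec g) :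
    Primrec (fun x => f x % g x) := Primrec.nat_mod.comp hf hg
@[fun_prop] theorem pr_nat_pow {f g : α → ℕ} (hf : Primrec f) (hg : Primrec g) :
    Primrec (fun x => f x ^ g x) := (Primrec₂.unpaired'.1 Nat.Primrec.pow).comp hf hg
@[fun_prop] theorem pr_nat_max {f g : α → ℕ} (hf : Primrec f) (hg : Primrec g) :
    Primrec (fun x => max (f x) (g x)) := Primrec.nat_max.comp hf hg
@[fun_prop] theorem pr_nat_pair {f g : α → ℕ} (hf : Primrec f) (hg : Primrec g) :
    Primrec (fun x => Nat.pair (f x) (g x)) := Primrec₂.natPair.comp hf hg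
@[fun_prop] theorem pr_nat_unpair {f : α → ℕ} (hf : Primrec f) :
    Primrec (fun x => Nat.unpair (f x)) := Primrec.unpair.comp hf
@[fun_prop] theorem pr_encode {f : α → β} (hf : Primrec f) :
    Primrec (fun x => encode (f x)) := Primrec.encode.comp hf
@[fun_prop] theorem pr_ite {c : α → Prop} [DecidablePred c] {f g : α → σ} (hc : PrimrecPred c)
    (hf : Primrec f) (hg : Primrec g) : Primrec (fun x => if c x then f x else g x) :=
  Primrec.ite hc hf hg
@[fun_prop] theorem pr_cond {c : α → Bool} {f g : α → σ} (hc : Primrec c)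
    (hf : Primrec f) (hg : Primrec g) : Primrec (fun x => bif c x then f x else g x) :=
  Primrec.cond hc hf hg
@[fun_prop] theorem pr_decide {c : α → Prop} [DecidablePred c] (hc : PrimrecPred c) :
    Primrec (fun x => decide (c x)) := hc.decide
@[fun_prop] theorem pr_cons {f : α → β} {g : α → List β} (hf : Primrec f) (hg : Primrec g) :
    Primrec (fun x => f x :: g x) := Primrec.list_cons.comp hf hg
@[fun_prop] theorem pr_append {f g : α → List β} (hf : Primrec f) (hg : Primrec g) :
    Primrec (fun x => f x ++ g x) := Primrec.list_append.comp hf hg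
@[fun_prop] theorem pr_length {f : α → List β} (hf : Primrec f) :
    Primrec (fun x => (f x).length) := Primrec.list_length.comp hf
@[fun_prop] theorem pr_range {f : α → ℕ} (hf : Primrec f) :
    Primrec (fun x => List.range (f x)) := Primrec.list_range.comp hf
@[fun_prop] theorem pr_map {f : α → List β} {g : α → β → σ} (hf : Primrec f)
    (hg : Primrec fun p : α × β => g p.1 p.2) : Primrec (fun x => (f x).map (g x)) :=
  Primrec.list_map hf hg
@[fun_prop] theorem pr_flatMap {f : α → List β} {g : α → β → List σ} (hf : Primrec f)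
    (hg : Primrec fun p : α × β => g p.1 p.2) : Primrec (fun x => (f x).flatMap (g x)) :=
  Primrec.list_flatMap hf hg
@[fun_prop] theorem pr_foldr {f : α → List β} {g : α → σ} {h : α → β → σ → σ} (hf : Primrec f)
    (hg : Primrec g) (hh : Primrec fun p : α × β × σ => h p.1 p.2.1 p.2.2) :
    Primrec (fun x => (f x).foldr (h x) (g x)) :=
  Primrec.list_foldr (h := fun a p => h a p.1 p.2) hf hg hh
@[fun_prop] theorem pr_iterate {f : α → ℕ} {g : α → β} {h : α → β → β} (hf : Primrec f)
    (hg : Primrec g) (hh : Primrec fun p : α × β => h p.1 p.2) :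
    Primrec (fun x => (h x)^[f x] (g x)) := Primrec.nat_iterate hf hg hh
theorem pr_fin_app {n : ℕ} {f : α → Fin n → σ} {g : α → Fin n} (hf : Primrec f)
    (hg : Primrec g) : Primrec (fun x => f x (g x)) := Primrec.fin_app.comp hf hg
@[fun_prop] theorem pr_apply {n : ℕ} (i : Fin n) : Primrec (fun f : Fin n → σ => f i) :=
  pr_fin_app pr_id (pr_const i)
theorem pr_fin_pi {n : ℕ} {f : α → Fin n → σ} (hf : ∀ i, Primrec (fun x => f x i)) : Primrec f :=
  Primrec.fin_curry.2 (Primrec₂.swap (Primrec.fin_curry₁.2 hf))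
@[fun_prop] theorem pr_nat_sum {f : α → List ℕ} (hf : Primrec f) : Primrec (fun x => (f x).sum) :=
  (pr_foldr (h := fun _ a b => a + b) hf (pr_const 0) (by fun_prop)).of_eq fun x => by
    rw [List.sum_eq_foldr]

@[fun_prop] theorem pp_const (c : Prop) : PrimrecPred (fun _ : α => c) := by
  classical exact (Primrec.const (decide c)).primrecPred
@[fun_prop] theorem pp_comp {p : β → Prop} {g : α → β} (hf : PrimrecPred p) (hg : Primrec g) :
    PrimrecPred (fun x => p (g x)) := hf.comp hg
@[fun_prop] theorem pp_eq {f g : α → β} (hf : Primrec f) (hg : Primrec g) :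
    PrimrecPred (fun x => f x = g x) := Primrec.eq.comp hf hg
@[fun_prop] theorem pp_nat_le {f g : α → ℕ} (hf : Primrec f) (hg : Primrec g) :
    PrimrecPred (fun x => f x ≤ g x) := Primrec.nat_le.comp hf hg
@[fun_prop] theorem pp_nat_lt {f g : α → ℕ} (hf : Primrec f) (hg : Primrec g) :
    PrimrecPred (fun x => f x < g x) := Primrec.nat_lt.comp hf hg
@[fun_prop] theorem pp_and {p q : α → Prop} (hf : PrimrecPred p) (hg : PrimrecPred q) :
    PrimrecPred (fun x => p x ∧ q x) := hf.and hg
@[fun_prop] theorem pp_or {p q : α → Prop} (hf : PrimrecPred p) (hg : PrimrecPred q) :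
    PrimrecPred (fun x => p x ∨ q x) := hf.or hg
@[fun_prop] theorem pp_not {p : α → Prop} (hf : PrimrecPred p) :
    PrimrecPred (fun x => ¬ p x) := hf.not
@[fun_prop] theorem pp_nat_dvd {f g : α → ℕ} (hf : Primrec f) (hg : Primrec g) :
    PrimrecPred (fun x => f x ∣ g x) :=
  (pp_eq (pr_nat_mod hg hf) (pr_const 0)).of_eq fun _ => (Nat.dvd_iff_mod_eq_zero ..).symm

theorem primrec_gcd : Primrec (fun p : ℕ × ℕ => Nat.gcd p.1 p.2) := by
  have h : PrimrecRel (fun (p : ℕ × ℕ) (d : ℕ) => d ∣ p.1 ∧ d ∣ p.2) := by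
    unfold PrimrecRel; fun_prop
  refine (Primrec.nat_findGreatest (f := fun p : ℕ × ℕ => p.1 + p.2) (by fun_prop) h).of_eq ?_
  rintro ⟨a, b⟩
  simp only
  rw [Nat.findGreatest_eq_iff]
  rcases Nat.eq_zero_or_pos (a + b) with h0 | h0
  · have ha : a = 0 := by omega
    have hb : b = 0 := by omega
    subst ha; subst hb; simp; omega
  · have hg : 0 < Nat.gcd a b := Nat.gcd_pos_iff.2 (by omega)
    refine ⟨?_, fun _ => ⟨Nat.gcd_dvd_left _ _, Nat.gcd_dvd_right _ _⟩, fun n hn _ hd => ?_⟩
    · exact Nat.le_of_dvd h0 (Nat.dvd_add (Nat.gcd_dvd_left _ _) (Nat.gcd_dvd_right _ _))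
    · exact absurd (Nat.le_of_dvd hg (Nat.dvd_gcd hd.1 hd.2)) (not_le.2 hn)

@[fun_prop] theorem pr_nat_gcd {f g : α → ℕ} (hf : Primrec f) (hg : Primrec g) :
    Primrec (fun x => Nat.gcd (f x) (g x)) := primrec_gcd.comp (hf.pair hg)

/-! ### integers -/

theorem encode_int_ofNat (n : ℕ) : encode (n : ℤ) = 2 * n := rfl
theorem encode_int_negSucc (n : ℕ) : encode (Int.negSucc n) = 2 * n + 1 := rfl

theorem primrec_toNat : Primrec Int.toNat := by
  have : Primrec (fun z : ℤ => if encode z % 2 = 0 then encode z / 2 else 0) := by fun_prop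
  refine this.of_eq fun z => ?_
  cases z with
  | ofNat n => simp [encode_int_ofNat]
  | negSucc n => simp [encode_int_negSucc]

theorem primrec_negToNat : Primrec (fun z : ℤ => (-z).toNat) := by
  have : Primrec (fun z : ℤ => if encode z % 2 = 0 then 0 else encode z / 2 + 1) := by fun_prop
  refine this.of_eq fun z => ?_
  cases z with
  | ofNat n => simp [encode_int_ofNat]
  | negSucc n =>
    have : (2 * n + 1) / 2 = n := by omega
    simp [encode_int_negSucc, this]

theorem primrec_subNatNat : Primrec (fun p : ℕ × ℕ => (p.1 : ℤ) - (p.2 : ℤ)) := by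
  rw [← Primrec.encode_iff]
  have : Primrec (fun p : ℕ × ℕ => if p.2 ≤ p.1 then 2 * (p.1 - p.2) else 2 * (p.2 - p.1 - 1) + 1) := by
    fun_prop
  refine this.of_eq ?_
  rintro ⟨a, b⟩
  simp only
  split_ifs with h
  · rw [← encode_int_ofNat]; congr 1; omega
  · rw [← encode_int_negSucc]; congr 1; omega

@[fun_prop] theorem pr_toNat {f : α → ℤ} (hf : Primrec f) : Primrec (fun x => (f x).toNat) :=
  primrec_toNat.comp hf
theorem pr_negToNat {f : α → ℤ} (hf : Primrec f) : Primrec (fun x => (-f x).toNat) :=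
  primrec_negToNat.comp hf
theorem pr_subNatNat {f g : α → ℕ} (hf : Primrec f) (hg : Primrec g) :
    Primrec (fun x => (f x : ℤ) - (g x : ℤ)) := primrec_subNatNat.comp (hf.pair hg)

@[fun_prop] theorem pr_natCast_int {f : α → ℕ} (hf : Primrec f) : Primrec (fun x => (f x : ℤ)) :=
  (pr_subNatNat hf (pr_const 0)).of_eq fun _ => by simp
@[fun_prop] theorem pr_int_neg {f : α → ℤ} (hf : Primrec f) : Primrec (fun x => -f x) :=
  (pr_subNatNat (pr_negToNat hf) (pr_toNat hf)).of_eq fun x => by omega
@[fun_prop] theorem pr_int_add {f g : α → ℤ} (hf : Primrec f) (hg : Primrec g) :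
    Primrec (fun x => f x + g x) :=
  (pr_subNatNat (f := fun x => (f x).toNat + (g x).toNat)
    (g := fun x => (-f x).toNat + (-g x).toNat) (by fun_prop) (by fun_prop)).of_eq fun x => by omega
@[fun_prop] theorem pr_int_sub {f g : α → ℤ} (hf : Primrec f) (hg : Primrec g) :
    Primrec (fun x => f x - g x) :=
  (pr_int_add hf (pr_int_neg hg)).of_eq fun x => by omega
@[fun_prop] theorem pr_int_mul {f g : α → ℤ} (hf : Primrec f) (hg : Primrec g) :
    Primrec (fun x => f x * g x) :=
  (pr_subNatNat (f := fun x => (f x).toNat * (g x).toNat + (-f x).toNat * (-g x).toNat)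
    (g := fun x => (f x).toNat * (-g x).toNat + (-f x).toNat * (g x).toNat)
    (by fun_prop) (by fun_prop)).of_eq fun x => by
      have h1 := Int.toNat_sub_toNat_neg (f x)
      have h2 := Int.toNat_sub_toNat_neg (g x)
      push_cast
      conv_rhs => rw [← h1, ← h2]
      ring
@[fun_prop] theorem pr_natAbs {f : α → ℤ} (hf : Primrec f) : Primrec (fun x => (f x).natAbs) :=
  (pr_nat_add (pr_toNat hf) (pr_negToNat hf)).of_eq fun x => by omega
@[fun_prop] theorem pp_int_le {f g : α → ℤ} (hf : Primrec f) (hg : Primrec g) :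
    PrimrecPred (fun x => f x ≤ g x) :=
  (pp_eq (pr_toNat (pr_int_sub hf hg)) (pr_const 0)).of_eq fun x => by omega
@[fun_prop] theorem pp_int_lt {f g : α → ℤ} (hf : Primrec f) (hg : Primrec g) :
    PrimrecPred (fun x => f x < g x) :=
  (pp_not (pp_int_le hg hf)).of_eq fun x => by omega

end Crest.Agent.PrimrecRat
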