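import Mathlib
import Crest.Agent.Lib.PrimrecRat.FunProp

/-! Primitive recursive arithmetic on `ℚ` for Mathlib's `Primcodable ℚ` instance (which comes from
`Denumerable ℚ`, the increasing enumeration of the range of the raw encoding). -/

set_option autoImplicit false

open Encodable Denumerable

namespace Crest.Agent.PrimrecRat

variable {α β γ σ : Type*} [Primcodable α] [Primcodable β] [Primcodable γ] [Primcodable σ]

/-- the raw code of a rational number -/
def rawQ (q : ℚ) : ℕ := Nat.pair (encode q.num) q.den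

/-- being a raw code -/
def IsRaw (m : ℕ) : Prop :=
  0 < m.unpair.2 ∧ Nat.gcd (ofNat ℤ m.unpair.1).natAbs m.unpair.2 = 1

instance : DecidablePred IsRaw := fun m => by unfold IsRaw; infer_instance

theorem primrec_isRaw : PrimrecPred IsRaw := by
  unfold IsRaw
  have : Primrec (ofNat ℤ) := Primrec.ofNat ℤ
  fun_prop

theorem rawQ_eq (q : ℚ) : @encode ℚ Rat.instEncodable q = rawQ q := rfl

theorem isRaw_rawQ (q : ℚ) : IsRaw (rawQ q) := by
  unfold IsRaw rawQ
  simp only [Nat.unpair_pair]
  refine ⟨q.den_pos, ?_⟩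
  have : ofNat ℤ (encode q.num) = q.num := Denumerable.ofNat_encode q.num
  rw [this]
  exact q.reduced

theorem mem_range_iff (m : ℕ) : m ∈ Set.range (@encode ℚ Rat.instEncodable) ↔ IsRaw m := by
  constructor
  · rintro ⟨q, rfl⟩; exact isRaw_rawQ q
  · rintro ⟨h1, h2⟩
    refine ⟨⟨ofNat ℤ m.unpair.1, m.unpair.2, h1.ne', h2⟩, ?_⟩
    rw [rawQ_eq]
    unfold rawQ
    have : encode (ofNat ℤ m.unpair.1) = m.unpair.1 := Denumerable.encode_ofNat _
    simp only [this, Nat.pair_unpair]

/-- number of raw codes below `m` -/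
def cnt (m : ℕ) : ℕ := ((List.range m).map fun x => if IsRaw x then 1 else 0).sum

theorem primrec_cnt : Primrec cnt := by
  unfold cnt
  have := primrec_isRaw
  fun_prop

theorem cnt_eq (m : ℕ) : cnt m = Nat.count IsRaw m := by
  induction m with
  | zero => rfl
  | succ m ih =>
    rw [Nat.count_succ, ← ih]
    unfold cnt
    rw [List.range_succ, List.map_append, List.sum_append]
    simp

/-- the code used by the `Primcodable` instance -/
abbrev encQ (q : ℚ) : ℕ := @encode ℚ (Primcodable.toEncodable) q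

theorem encQ_eq (q : ℚ) : encQ q = cnt (rawQ q) := by
  have h1 : encQ q = (List.range (rawQ q)).countP
      (fun x => @decide (x ∈ Set.range (@encode ℚ Rat.instEncodable))
        (@Encodable.decidableRangeEncode ℚ Rat.instEncodable x)) := rfl
  rw [h1, cnt_eq, Nat.count, List.countP_congr]
  intro x _
  simp only [decide_eq_true_eq]
  exact mem_range_iff x

theorem isRaw_int (n : ℕ) : IsRaw (Nat.pair (2 * n) 1) := by
  unfold IsRaw; simp

theorem le_count (n : ℕ) : n ≤ Nat.count IsRaw (Nat.pair (2 * n) 1) := by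
  induction n with
  | zero => exact Nat.zero_le _
  | succ n ih =>
    have h1 : Nat.pair (2 * n) 1 < Nat.pair (2 * (n + 1)) 1 := Nat.pair_lt_pair_left _ (by omega)
    have h2 := Nat.count_strict_mono (isRaw_int n) h1
    omega

theorem primrec_rawQ : Primrec rawQ := by
  apply Primrec.of_graph
  · refine ⟨fun q => Nat.pair (2 * (encQ q + 1)) 1, by fun_prop, fun q => ?_⟩
    show rawQ q ≤ Nat.pair (2 * (encQ q + 1)) 1
    by_contra hc
    rw [not_le] at hc
    have h1 := le_count (encQ q + 1)
    have h2 := Nat.count_monotone IsRaw hc.le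
    rw [← cnt_eq (rawQ q), ← encQ_eq] at h2
    omega
  · have h : PrimrecRel fun (q : ℚ) (b : ℕ) => IsRaw b ∧ cnt b = encQ q := by
      unfold PrimrecRel
      have h1 := primrec_isRaw
      have h2 := primrec_cnt
      fun_prop
    refine h.of_eq fun q b => ⟨fun ⟨h1, h2⟩ => ?_, fun h => ?_⟩
    · rw [encQ_eq, cnt_eq, cnt_eq] at h2
      exact (Nat.count_injective h1 (isRaw_rawQ q) h2).symm
    · subst h; exact ⟨isRaw_rawQ q, (encQ_eq q).symm⟩

theorem primrec_num : Primrec Rat.num := by
  have h1 := primrec_rawQ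
  have h2 : Primrec (ofNat ℤ) := Primrec.ofNat ℤ
  have : Primrec fun q => ofNat ℤ (rawQ q).unpair.1 := by fun_prop
  refine this.of_eq fun q => ?_
  unfold rawQ
  simp only [Nat.unpair_pair]
  exact Denumerable.ofNat_encode q.num

theorem primrec_den : Primrec Rat.den := by
  have h1 := primrec_rawQ
  have : Primrec fun q => (rawQ q).unpair.2 := by fun_prop
  refine this.of_eq fun q => ?_
  unfold rawQ
  simp only [Nat.unpair_pair]

@[fun_prop] theorem pr_num {f : α → ℚ} (hf : Primrec f) : Primrec (fun x => (f x).num) :=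
  primrec_num.comp hf
@[fun_prop] theorem pr_den {f : α → ℚ} (hf : Primrec f) : Primrec (fun x => (f x).den) :=
  primrec_den.comp hf

theorem pr_of_num_den {f : α → ℚ} (h1 : Primrec fun x => (f x).num)
    (h2 : Primrec fun x => (f x).den) : Primrec f := by
  rw [← Primrec.encode_iff]
  have h3 := primrec_cnt
  have : Primrec fun x => cnt (Nat.pair (encode (f x).num) (f x).den) := by fun_prop
  exact this.of_eq fun x => (encQ_eq (f x)).symm

@[fun_prop] theorem pr_mkRat {f : α → ℤ} {g : α → ℕ} (hf : Primrec f) (hg : Primrec g) :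
    Primrec (fun x => mkRat (f x) (g x)) := by
  apply pr_of_num_den
  · have : Primrec fun x => if g x = 0 then (0 : ℤ) else
        (((f x).toNat / Nat.gcd (g x) (f x).natAbs : ℕ) : ℤ) -
          (((-f x).toNat / Nat.gcd (g x) (f x).natAbs : ℕ) : ℤ) := by fun_prop
    refine this.of_eq fun x => ?_
    rw [Rat.num_mkRat]
    split_ifs with h
    · rfl
    · obtain ⟨c, hc⟩ : ((Nat.gcd (g x) (f x).natAbs : ℕ) : ℤ) ∣ f x :=
        Int.natCast_dvd.2 (Nat.gcd_dvd_right _ _)
      have hp : 0 < Nat.gcd (g x) (f x).natAbs := Nat.gcd_pos_of_pos_left _ (Nat.pos_of_ne_zero h)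
      generalize Nat.gcd (g x) (f x).natAbs = d at hc hp
      have hd : (d : ℤ) ≠ 0 := by exact_mod_cast hp.ne'
      rw [hc, Int.mul_ediv_cancel_left _ hd]
      have e0 : ∀ c : ℤ, ((d : ℤ) * c).toNat = d * c.toNat := by
        intro c
        rcases le_total 0 c with hc | hc
        · obtain ⟨k, rfl⟩ := Int.eq_ofNat_of_zero_le hc
          rw [← Nat.cast_mul, Int.toNat_natCast, Int.toNat_natCast]
        · rw [Int.toNat_eq_zero.2 hc, Int.toNat_eq_zero.2
            (mul_nonpos_of_nonneg_of_nonpos (Int.natCast_nonneg d) hc), mul_zero]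
      have e1 := e0 c
      have e2 : (-((d : ℤ) * c)).toNat = d * (-c).toNat := by rw [← mul_neg, e0]
      rw [e1, e2, Nat.mul_div_cancel_left _ hp, Nat.mul_div_cancel_left _ hp]
      omega
  · have : Primrec fun x => if g x = 0 then 1 else g x / Nat.gcd (g x) (f x).natAbs := by fun_prop
    refine this.of_eq fun x => ?_
    rw [Rat.den_mkRat]

@[fun_prop] theorem pr_rat_add {f g : α → ℚ} (hf : Primrec f) (hg : Primrec g) :
    Primrec (fun x => f x + g x) := by
  have : Primrec fun x => mkRat ((f x).num * (g x).den + (g x).num * (f x).den)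
      ((f x).den * (g x).den) := by fun_prop
  exact this.of_eq fun x => (Rat.add_def' _ _).symm

@[fun_prop] theorem pr_rat_mul {f g : α → ℚ} (hf : Primrec f) (hg : Primrec g) :
    Primrec (fun x => f x * g x) := by
  have : Primrec fun x => mkRat ((f x).num * (g x).num) ((f x).den * (g x).den) := by fun_prop
  exact this.of_eq fun x => (Rat.mul_eq_mkRat _ _).symm

@[fun_prop] theorem pr_intCast_rat {f : α → ℤ} (hf : Primrec f) : Primrec (fun x => (f x : ℚ)) := by
  have : Primrec fun x => mkRat (f x) 1 := by fun_prop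
  exact this.of_eq fun x => Rat.mkRat_one _

@[fun_prop] theorem pr_natCast_rat {f : α → ℕ} (hf : Primrec f) : Primrec (fun x => (f x : ℚ)) :=
  (pr_intCast_rat (pr_natCast_int hf)).of_eq fun x => by simp

@[fun_prop] theorem pr_rat_neg {f : α → ℚ} (hf : Primrec f) : Primrec (fun x => -f x) :=
  (pr_rat_mul (pr_const (-1)) hf).of_eq fun x => by simp

@[fun_prop] theorem pr_rat_sub {f g : α → ℚ} (hf : Primrec f) (hg : Primrec g) :
    Primrec (fun x => f x - g x) :=
  (pr_rat_add hf (pr_rat_neg hg)).of_eq fun x => by ring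

@[fun_prop] theorem pr_rat_inv {f : α → ℚ} (hf : Primrec f) : Primrec (fun x => (f x)⁻¹) := by
  have : Primrec fun x => mkRat (if 0 ≤ (f x).num then ((f x).den : ℤ) else -((f x).den : ℤ))
      (f x).num.natAbs := by fun_prop
  refine this.of_eq fun x => ?_
  generalize f x = q
  rw [Rat.mkRat_eq_div]
  conv_rhs => rw [← Rat.num_div_den q, inv_div]
  split_ifs with h
  · rw [Nat.cast_natAbs, abs_of_nonneg h]; simp
  · rw [Nat.cast_natAbs, abs_of_neg (not_le.1 h)]; push_cast; rw [neg_div_neg_eq]

@[fun_prop] theorem pr_rat_div {f g : α → ℚ} (hf : Primrec f) (hg : Primrec g) :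
    Primrec (fun x => f x / g x) :=
  (pr_rat_mul hf (pr_rat_inv hg)).of_eq fun x => by rw [div_eq_mul_inv]

@[fun_prop] theorem pr_rat_pow {f : α → ℚ} {g : α → ℕ} (hf : Primrec f) (hg : Primrec g) :
    Primrec (fun x => f x ^ g x) := by
  have : Primrec fun x => (fun y => y * f x)^[g x] 1 := by fun_prop
  refine this.of_eq fun x => ?_
  induction g x with
  | zero => simp
  | succ n ih => rw [Function.iterate_succ_apply', ih, pow_succ]

@[fun_prop] theorem pp_rat_le {f g : α → ℚ} (hf : Primrec f) (hg : Primrec g) :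
    PrimrecPred (fun x => f x ≤ g x) := by
  have : PrimrecPred fun x => 0 ≤ (g x - f x).num := by fun_prop
  exact this.of_eq fun x => by rw [Rat.num_nonneg, sub_nonneg]

@[fun_prop] theorem pp_rat_lt {f g : α → ℚ} (hf : Primrec f) (hg : Primrec g) :
    PrimrecPred (fun x => f x < g x) :=
  (pp_not (pp_rat_le hg hf)).of_eq fun _ => not_le

@[fun_prop] theorem pr_rat_sum {f : α → List ℚ} (hf : Primrec f) : Primrec (fun x => (f x).sum) :=
  (pr_foldr (h := fun _ a b => a + b) hf (pr_const 0) (by fun_prop)).of_eq fun x => by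
    rw [List.sum_eq_foldr]

@[fun_prop] theorem pr_rat_prod {f : α → List ℚ} (hf : Primrec f) :
    Primrec (fun x => (f x).prod) :=
  (pr_foldr (h := fun _ a b => a * b) hf (pr_const 1) (by fun_prop)).of_eq fun x => by
    rw [List.prod_eq_foldr]

theorem abs_le_natAbs_num (q : ℚ) : |q| ≤ (q.num.natAbs : ℚ) := by
  conv_lhs => rw [← Rat.num_div_den q, abs_div]
  rw [Nat.cast_natAbs, Int.cast_abs, Nat.abs_cast]
  exact div_le_self (abs_nonneg _) (by exact_mod_cast q.den_pos)

end Crest.Agent.PrimrecRat
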